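import Mathlib

namespace Vale.Agent.Lib.P036.H65

/-- Area of the triangle `pqr`: half the absolute value of the determinant of `(q - p, r - p)`. -/
noncomputable def triArea (p q r : ℝ × ℝ) : ℝ :=
  |(q.1 - p.1) * (r.2 - p.2) - (q.2 - p.2) * (r.1 - p.1)| / 2

/-- Euclidean distance between two points of the plane. -/
noncomputable def eDist (p q : ℝ × ℝ) : ℝ :=
  Real.sqrt ((q.1 - p.1) ^ 2 + (q.2 - p.2) ^ 2)

end Vale.Agent.Lib.P036.H65
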