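import Mathlib
import Vale.Agent.Lib.P036.H65.Defs

namespace Vale.Agent.Lib.P036.H65

theorem eDist_nonneg (p q : ℝ × ℝ) : 0 ≤ eDist p q := Real.sqrt_nonneg _

/-- The triangle on three consecutive points of a path has area at most half the product of the
two edge lengths. -/
theorem triArea_le_mul (a b c : ℝ × ℝ) : triArea a b c ≤ eDist a b * eDist b c / 2 := by
  unfold triArea eDist
  have h1 : |(b.1 - a.1) * (c.2 - a.2) - (b.2 - a.2) * (c.1 - a.1)| ≤
      Real.sqrt (((b.1 - a.1) ^ 2 + (b.2 - a.2) ^ 2) * ((c.1 - b.1) ^ 2 + (c.2 - b.2) ^ 2)) := by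
    apply Real.abs_le_sqrt
    nlinarith [sq_nonneg ((b.1 - a.1) * (c.1 - b.1) + (b.2 - a.2) * (c.2 - b.2))]
  rw [Real.sqrt_mul (by positivity)] at h1
  linarith

/-- Core estimate: on a path through `m + 3` points of total length at most `ℓ`, some three
consecutive points span a triangle of area at most `ℓ ^ 2 / (2 (m + 1) ^ 2)`. -/
theorem path_core (p : ℕ → ℝ × ℝ) (m : ℕ) (ℓ : ℝ)
    (hlen : ∑ i ∈ Finset.range (m + 2), eDist (p i) (p (i + 1)) ≤ ℓ) :
    ∃ i, i < m + 1 ∧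
      triArea (p i) (p (i + 1)) (p (i + 2)) * (2 * ((m : ℝ) + 1) ^ 2) ≤ ℓ ^ 2 := by
  set s : ℕ → ℝ := fun i => eDist (p i) (p (i + 1)) with hs
  have hs0 : ∀ i, 0 ≤ s i := fun i => eDist_nonneg _ _
  have hℓ : 0 ≤ ℓ := le_trans (Finset.sum_nonneg (fun i _ => hs0 i)) hlen
  have hA : ∑ i ∈ Finset.range (m + 1), s i ≤ ∑ i ∈ Finset.range (m + 2), s i := by
    rw [Finset.sum_range_succ _ (m + 1)]
    linarith [hs0 (m + 1)]
  have hB : ∑ i ∈ Finset.range (m + 1), s (i + 1) ≤ ∑ i ∈ Finset.range (m + 2), s i := by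
    rw [Finset.sum_range_succ' _ (m + 1)]
    linarith [hs0 0]
  have hsum : ∑ i ∈ Finset.range (m + 1), (s i + s (i + 1)) ≤
      ∑ _i ∈ Finset.range (m + 1), 2 * ℓ / ((m : ℝ) + 1) := by
    rw [Finset.sum_add_distrib, Finset.sum_const, Finset.card_range, nsmul_eq_mul]
    have hm : ((m : ℝ) + 1) ≠ 0 := by positivity
    have : ((m + 1 : ℕ) : ℝ) * (2 * ℓ / ((m : ℝ) + 1)) = 2 * ℓ := by
      push_cast
      field_simp
    rw [this]
    linarith
  obtain ⟨i, hi, hle⟩ := Finset.exists_le_of_sum_le Finset.nonempty_range_add_one hsum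
  refine ⟨i, Finset.mem_range.mp hi, ?_⟩
  have hm : (0 : ℝ) < (m : ℝ) + 1 := by positivity
  have h1 := triArea_le_mul (p i) (p (i + 1)) (p (i + 2))
  have h2 : s i + s (i + 1) ≤ 2 * ℓ / ((m : ℝ) + 1) := hle
  have h3 : (s i + s (i + 1)) * ((m : ℝ) + 1) ≤ 2 * ℓ := by
    rw [le_div_iff₀ hm] at h2
    exact h2
  have h4 : s i * s (i + 1) * ((m : ℝ) + 1) ^ 2 ≤ ℓ ^ 2 := by
    have hx := hs0 i
    have hy := hs0 (i + 1)
    have h5 : 0 ≤ (s i + s (i + 1)) * ((m : ℝ) + 1) := by positivity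
    nlinarith [sq_nonneg (s i - s (i + 1)), mul_self_le_mul_self h5 h3]
  have h6 : triArea (p i) (p (i + 1)) (p (i + 2)) * (2 * ((m : ℝ) + 1) ^ 2) ≤
      s i * s (i + 1) / 2 * (2 * ((m : ℝ) + 1) ^ 2) :=
    mul_le_mul_of_nonneg_right h1 (by positivity)
  calc triArea (p i) (p (i + 1)) (p (i + 2)) * (2 * ((m : ℝ) + 1) ^ 2)
      ≤ s i * s (i + 1) / 2 * (2 * ((m : ℝ) + 1) ^ 2) := h6
    _ = s i * s (i + 1) * ((m : ℝ) + 1) ^ 2 := by ring
    _ ≤ ℓ ^ 2 := h4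

/-- Set version: if the `n ≥ 3` points of `P` are enumerated as `p 0, …, p (n - 1)` and the
polygonal path through them in this order has length at most `ℓ`, then three distinct points of
`P` span a triangle of area at most `ℓ ^ 2 / (2 (n - 2) ^ 2)`. -/
theorem path_set (P : Finset (ℝ × ℝ)) (n : ℕ) (hn : 3 ≤ n) (hcard : P.card = n)
    (p : ℕ → ℝ × ℝ) (hP : P = (Finset.range n).image p) (ℓ : ℝ)
    (hlen : ∑ i ∈ Finset.range (n - 1), eDist (p i) (p (i + 1)) ≤ ℓ) :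
    ∃ a ∈ P, ∃ b ∈ P, ∃ c ∈ P, a ≠ b ∧ b ≠ c ∧ a ≠ c ∧
      triArea a b c * (2 * ((n : ℝ) - 2) ^ 2) ≤ ℓ ^ 2 := by
  obtain ⟨m, rfl⟩ : ∃ m, n = m + 3 := ⟨n - 3, by omega⟩
  have hinj : Set.InjOn p (Finset.range (m + 3) : Set ℕ) := by
    apply Finset.card_image_iff.mp
    rw [← hP, hcard, Finset.card_range]
  have hlen' : ∑ i ∈ Finset.range (m + 2), eDist (p i) (p (i + 1)) ≤ ℓ := by
    have : m + 3 - 1 = m + 2 := by omega
    rw [this] at hlen
    exact hlen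
  obtain ⟨i, hi, hle⟩ := path_core p m ℓ hlen'
  have hmem : ∀ j, j < m + 3 → p j ∈ P := by
    intro j hj
    rw [hP]
    exact Finset.mem_image_of_mem p (Finset.mem_range.mpr hj)
  have hne : ∀ j k, j < m + 3 → k < m + 3 → j ≠ k → p j ≠ p k := by
    intro j k hj hk hjk h
    exact hjk (hinj (Finset.mem_coe.mpr (Finset.mem_range.mpr hj))
      (Finset.mem_coe.mpr (Finset.mem_range.mpr hk)) h)
  refine ⟨p i, hmem i (by omega), p (i + 1), hmem (i + 1) (by omega), p (i + 2),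
    hmem (i + 2) (by omega), hne _ _ (by omega) (by omega) (by omega),
    hne _ _ (by omega) (by omega) (by omega), hne _ _ (by omega) (by omega) (by omega), ?_⟩
  have : ((m + 3 : ℕ) : ℝ) - 2 = (m : ℝ) + 1 := by push_cast; ring
  rw [this]
  exact hle

end Vale.Agent.Lib.P036.H65
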