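import Mathlib
import Vale.Agent.Lib.P036.H65.Defs
import Vale.Agent.Lib.P036.H65.Path

namespace Vale.Agent.Lib.P036.H65

/-- Lexicographic enumeration of a finite planar point set. -/
theorem exists_lex_enum (C : Finset (ℝ × ℝ)) :
    ∃ p : ℕ → ℝ × ℝ, (Finset.range C.card).image p = C ∧
      ∀ i j, i < j → j < C.card →
        ((p i).1 < (p j).1 ∨ ((p i).1 = (p j).1 ∧ (p i).2 < (p j).2)) := by
  classical
  set s : Finset (ℝ ×ₗ ℝ) := C.map toLex.toEmbedding with hs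
  have hcard : s.card = C.card := Finset.card_map _
  set e := s.orderEmbOfFin hcard with he
  refine ⟨fun i => if h : i < C.card then ofLex (e ⟨i, h⟩) else (0, 0), ?_, ?_⟩
  · ext x
    simp only [Finset.mem_image, Finset.mem_range]
    constructor
    · rintro ⟨i, hi, rfl⟩
      rw [dif_pos hi]
      have hmem : e ⟨i, hi⟩ ∈ s := Finset.orderEmbOfFin_mem s hcard ⟨i, hi⟩
      rw [hs, Finset.mem_map] at hmem
      obtain ⟨y, hy, hye⟩ := hmem
      rw [← hye]
      exact hy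
    · intro hx
      have hmem : toLex x ∈ s := by
        rw [hs, Finset.mem_map]
        exact ⟨x, hx, rfl⟩
      have hmem2 : toLex x ∈ Finset.image e Finset.univ := by
        rw [he, Finset.image_orderEmbOfFin_univ]
        exact hmem
      obtain ⟨i, _, hi⟩ := Finset.mem_image.mp hmem2
      refine ⟨i.val, i.isLt, ?_⟩
      rw [dif_pos i.isLt]
      have : e ⟨i.val, i.isLt⟩ = toLex x := hi
      rw [this]
      rfl
  · intro i j hij hj
    have hi : i < C.card := lt_trans hij hj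
    simp only [dif_pos hi, dif_pos hj]
    have hlt : e ⟨i, hi⟩ < e ⟨j, hj⟩ := e.strictMono (Fin.mk_lt_mk.mpr hij)
    exact Prod.Lex.toLex_lt_toLex.mp hlt

/-- Euclidean distance is at most the sum of the coordinate increments when both are
nonnegative. -/
theorem eDist_le_add (a b : ℝ × ℝ) (h1 : a.1 ≤ b.1) (h2 : a.2 ≤ b.2) :
    eDist a b ≤ (b.1 - a.1) + (b.2 - a.2) := by
  unfold eDist
  apply Real.sqrt_le_iff.mpr
  constructor
  · linarith
  · nlinarith [mul_nonneg (sub_nonneg.mpr h1) (sub_nonneg.mpr h2)]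

/-- A coordinatewise increasing chain of `m ≥ 3` points of the unit square contains a triangle
of area at most `2 / (m - 2) ^ 2`. -/
theorem chain_incr (C : Finset (ℝ × ℝ))
    (hsq : ∀ p ∈ C, 0 ≤ p.1 ∧ p.1 ≤ 1 ∧ 0 ≤ p.2 ∧ p.2 ≤ 1)
    (hmono : ∀ p ∈ C, ∀ q ∈ C, 0 ≤ (p.1 - q.1) * (p.2 - q.2)) (h3 : 3 ≤ C.card) :
    ∃ a ∈ C, ∃ b ∈ C, ∃ c ∈ C, a ≠ b ∧ b ≠ c ∧ a ≠ c ∧
      triArea a b c * ((C.card : ℝ) - 2) ^ 2 ≤ 2 := by
  obtain ⟨p, himg, hlex⟩ := exists_lex_enum C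
  have hmem : ∀ i, i < C.card → p i ∈ C := by
    intro i hi
    rw [← himg]
    exact Finset.mem_image_of_mem p (Finset.mem_range.mpr hi)
  have hstep : ∀ i j, i < j → j < C.card → (p i).1 ≤ (p j).1 ∧ (p i).2 ≤ (p j).2 := by
    intro i j hij hj
    have hm := hmono (p i) (hmem i (lt_trans hij hj)) (p j) (hmem j hj)
    rcases hlex i j hij hj with h | ⟨h1, h2⟩
    · refine ⟨le_of_lt h, ?_⟩
      by_contra hcon
      have hcon' : (p j).2 < (p i).2 := not_le.mp hcon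
      nlinarith
    · exact ⟨le_of_eq h1, le_of_lt h2⟩
  have hlen : ∑ i ∈ Finset.range (C.card - 1), eDist (p i) (p (i + 1)) ≤ 2 := by
    have hle : ∑ i ∈ Finset.range (C.card - 1), eDist (p i) (p (i + 1)) ≤
        ∑ i ∈ Finset.range (C.card - 1),
          (((p (i + 1)).1 + (p (i + 1)).2) - ((p i).1 + (p i).2)) := by
      apply Finset.sum_le_sum
      intro i hi
      have hi' : i + 1 < C.card := by
        have := Finset.mem_range.mp hi
        omega
      have := hstep i (i + 1) (Nat.lt_succ_self i) hi'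
      have h := eDist_le_add (p i) (p (i + 1)) this.1 this.2
      linarith
    rw [Finset.sum_range_sub (fun i => (p i).1 + (p i).2)] at hle
    have hlast := hsq (p (C.card - 1)) (hmem _ (by omega))
    have hfirst := hsq (p 0) (hmem 0 (by omega))
    linarith [hlast.2.1, hlast.2.2.2, hfirst.1, hfirst.2.2.1]
  obtain ⟨a, ha, b, hb, c, hc, hab, hbc, hac, hle⟩ :=
    path_set C C.card h3 rfl p himg.symm 2 hlen
  refine ⟨a, ha, b, hb, c, hc, hab, hbc, hac, ?_⟩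
  nlinarith

/-- Reflection in the horizontal line `y = 1 / 2`. -/
def refl (p : ℝ × ℝ) : ℝ × ℝ := (p.1, 1 - p.2)

theorem refl_injective : Function.Injective refl := by
  intro p q h
  unfold refl at h
  simp only [Prod.mk.injEq] at h
  exact Prod.ext h.1 (by linarith [h.2])

theorem triArea_refl (a b c : ℝ × ℝ) : triArea (refl a) (refl b) (refl c) = triArea a b c := by
  unfold triArea refl
  have : (b.1 - a.1) * ((1 - c.2) - (1 - a.2)) - ((1 - b.2) - (1 - a.2)) * (c.1 - a.1) =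
      -((b.1 - a.1) * (c.2 - a.2) - (b.2 - a.2) * (c.1 - a.1)) := by ring
  simp only [this, abs_neg]

/-- A coordinatewise monotone (increasing or decreasing) chain of `m ≥ 3` points of the unit
square contains a triangle of area at most `2 / (m - 2) ^ 2`. -/
theorem chain_mono (C : Finset (ℝ × ℝ))
    (hsq : ∀ p ∈ C, 0 ≤ p.1 ∧ p.1 ≤ 1 ∧ 0 ≤ p.2 ∧ p.2 ≤ 1)
    (hmono : (∀ p ∈ C, ∀ q ∈ C, 0 ≤ (p.1 - q.1) * (p.2 - q.2)) ∨
      (∀ p ∈ C, ∀ q ∈ C, (p.1 - q.1) * (p.2 - q.2) ≤ 0)) (h3 : 3 ≤ C.card) :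
    ∃ a ∈ C, ∃ b ∈ C, ∃ c ∈ C, a ≠ b ∧ b ≠ c ∧ a ≠ c ∧
      triArea a b c * ((C.card : ℝ) - 2) ^ 2 ≤ 2 := by
  classical
  rcases hmono with hinc | hdec
  · exact chain_incr C hsq hinc h3
  · have hcard : (C.image refl).card = C.card := Finset.card_image_of_injective C refl_injective
    have hsq' : ∀ p ∈ C.image refl, 0 ≤ p.1 ∧ p.1 ≤ 1 ∧ 0 ≤ p.2 ∧ p.2 ≤ 1 := by
      intro p hp
      obtain ⟨q, hq, rfl⟩ := Finset.mem_image.mp hp
      have := hsq q hq
      unfold refl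
      refine ⟨this.1, this.2.1, ?_, ?_⟩
      · simp only
        linarith [this.2.2.2]
      · simp only
        linarith [this.2.2.1]
    have hinc' : ∀ p ∈ C.image refl, ∀ q ∈ C.image refl, 0 ≤ (p.1 - q.1) * (p.2 - q.2) := by
      intro p hp q hq
      obtain ⟨p', hp', rfl⟩ := Finset.mem_image.mp hp
      obtain ⟨q', hq', rfl⟩ := Finset.mem_image.mp hq
      have := hdec p' hp' q' hq'
      unfold refl
      simp only
      nlinarith
    obtain ⟨a, ha, b, hb, c, hc, hab, hbc, hac, hle⟩ :=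
      chain_incr (C.image refl) hsq' hinc' (by rw [hcard]; exact h3)
    obtain ⟨a', ha', rfl⟩ := Finset.mem_image.mp ha
    obtain ⟨b', hb', rfl⟩ := Finset.mem_image.mp hb
    obtain ⟨c', hc', rfl⟩ := Finset.mem_image.mp hc
    refine ⟨a', ha', b', hb', c', hc', fun h => hab (by rw [h]), fun h => hbc (by rw [h]),
      fun h => hac (by rw [h]), ?_⟩
    rw [triArea_refl, hcard] at hle
    exact hle

/-- A set of `n` points of the unit square covered by `k` monotone chains, `n > 2 k`, contains a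
triangle of area at most `2 k ^ 2 / (n - 2 k) ^ 2`. -/
theorem chains_cover (P : Finset (ℝ × ℝ))
    (hsq : ∀ p ∈ P, 0 ≤ p.1 ∧ p.1 ≤ 1 ∧ 0 ≤ p.2 ∧ p.2 ≤ 1)
    (k : ℕ) (C : Fin k → Finset (ℝ × ℝ)) (hcov : ∀ p ∈ P, ∃ j, p ∈ C j)
    (hmono : ∀ j, (∀ p ∈ C j, ∀ q ∈ C j, 0 ≤ (p.1 - q.1) * (p.2 - q.2)) ∨
      (∀ p ∈ C j, ∀ q ∈ C j, (p.1 - q.1) * (p.2 - q.2) ≤ 0))
    (hk : 2 * k < P.card) :
    ∃ a ∈ P, ∃ b ∈ P, ∃ c ∈ P, a ≠ b ∧ b ≠ c ∧ a ≠ c ∧
      triArea a b c * ((P.card : ℝ) - 2 * k) ^ 2 ≤ 2 * (k : ℝ) ^ 2 := by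
  classical
  have hsub : P ⊆ Finset.univ.biUnion (fun j => C j ∩ P) := by
    intro p hp
    obtain ⟨j, hj⟩ := hcov p hp
    exact Finset.mem_biUnion.mpr ⟨j, Finset.mem_univ j, Finset.mem_inter.mpr ⟨hj, hp⟩⟩
  have hcardle : P.card ≤ ∑ j : Fin k, (C j ∩ P).card :=
    le_trans (Finset.card_le_card hsub) Finset.card_biUnion_le
  have hex : ∃ j : Fin k, P.card ≤ k * (C j ∩ P).card := by
    by_contra hcon
    push Not at hcon
    have hkpos : 0 < k := by
      rcases Nat.eq_zero_or_pos k with h0 | h0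
      · subst h0
        rw [Finset.univ_eq_empty, Finset.sum_empty] at hcardle
        omega
      · exact h0
    have hlt : ∑ j : Fin k, k * (C j ∩ P).card < ∑ _j : Fin k, P.card := by
      apply Finset.sum_lt_sum_of_nonempty
      · exact ⟨⟨0, hkpos⟩, Finset.mem_univ _⟩
      · intro j _
        exact hcon j
    rw [← Finset.mul_sum, Finset.sum_const, Finset.card_univ, Fintype.card_fin, smul_eq_mul] at hlt
    have := Nat.lt_of_mul_lt_mul_left hlt
    omega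
  obtain ⟨j, hj⟩ := hex
  set D := C j ∩ P with hD
  have hD3 : 3 ≤ D.card := by
    by_contra hcon
    have : D.card ≤ 2 := by omega
    have : k * D.card ≤ k * 2 := Nat.mul_le_mul_left k this
    omega
  have hDsq : ∀ p ∈ D, 0 ≤ p.1 ∧ p.1 ≤ 1 ∧ 0 ≤ p.2 ∧ p.2 ≤ 1 :=
    fun p hp => hsq p (Finset.mem_inter.mp hp).2
  have hDmono : (∀ p ∈ D, ∀ q ∈ D, 0 ≤ (p.1 - q.1) * (p.2 - q.2)) ∨
      (∀ p ∈ D, ∀ q ∈ D, (p.1 - q.1) * (p.2 - q.2) ≤ 0) := by
    rcases hmono j with h | h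
    · exact Or.inl (fun p hp q hq => h p (Finset.mem_inter.mp hp).1 q (Finset.mem_inter.mp hq).1)
    · exact Or.inr (fun p hp q hq => h p (Finset.mem_inter.mp hp).1 q (Finset.mem_inter.mp hq).1)
  obtain ⟨a, ha, b, hb, c, hc, hab, hbc, hac, hle⟩ := chain_mono D hDsq hDmono hD3
  refine ⟨a, (Finset.mem_inter.mp ha).2, b, (Finset.mem_inter.mp hb).2, c,
    (Finset.mem_inter.mp hc).2, hab, hbc, hac, ?_⟩
  have hT : 0 ≤ triArea a b c := by
    unfold triArea
    positivity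
  have h1 : ((P.card : ℝ) - 2 * k) ≤ (k : ℝ) * ((D.card : ℝ) - 2) := by
    have : (P.card : ℝ) ≤ (k : ℝ) * (D.card : ℝ) := by exact_mod_cast hj
    linarith
  have h0 : (0 : ℝ) ≤ (P.card : ℝ) - 2 * k := by
    have : (2 * k : ℝ) < (P.card : ℝ) := by exact_mod_cast hk
    linarith
  have h2 : ((P.card : ℝ) - 2 * k) ^ 2 ≤ ((k : ℝ) * ((D.card : ℝ) - 2)) ^ 2 :=
    pow_le_pow_left₀ h0 h1 2
  calc triArea a b c * ((P.card : ℝ) - 2 * k) ^ 2
      ≤ triArea a b c * ((k : ℝ) * ((D.card : ℝ) - 2)) ^ 2 := mul_le_mul_of_nonneg_left h2 hT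
    _ = (k : ℝ) ^ 2 * (triArea a b c * ((D.card : ℝ) - 2) ^ 2) := by ring
    _ ≤ (k : ℝ) ^ 2 * 2 := mul_le_mul_of_nonneg_left hle (by positivity)
    _ = 2 * (k : ℝ) ^ 2 := by ring

end Vale.Agent.Lib.P036.H65
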