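import Mathlib
import Vale.Agent.Lib.P036.H65.Defs

namespace Vale.Agent.Lib.P036.H65

theorem amgm3 (a b c : ℝ) (ha : 0 ≤ a) (hb : 0 ≤ b) (hc : 0 ≤ c) :
    27 * (a * b * c) ≤ (a + b + c) ^ 3 := by
  have hs : 0 ≤ a + b + c := add_nonneg (add_nonneg ha hb) hc
  nlinarith [mul_nonneg ha (sq_nonneg (b - c)), mul_nonneg hb (sq_nonneg (c - a)),
    mul_nonneg hc (sq_nonneg (a - b)), mul_nonneg hs (sq_nonneg (a - b)),
    mul_nonneg hs (sq_nonneg (b - c)), mul_nonneg hs (sq_nonneg (c - a))]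

/-- Pigeonhole with three sums: among `N` triples of nonnegative reals whose three coordinate
sums are at most `X`, `Y`, `Z`, some triple has product at most `X Y Z / N ^ 3`. -/
theorem three_sum_pigeon (N : ℕ) (hN : 0 < N) (x y z : ℕ → ℝ)
    (hx : ∀ i, i < N → 0 ≤ x i) (hy : ∀ i, i < N → 0 ≤ y i) (hz : ∀ i, i < N → 0 ≤ z i)
    (X Y Z : ℝ) (hX0 : 0 < X) (hY0 : 0 < Y) (hZ0 : 0 < Z)
    (hX : ∑ i ∈ Finset.range N, x i ≤ X) (hY : ∑ i ∈ Finset.range N, y i ≤ Y)
    (hZ : ∑ i ∈ Finset.range N, z i ≤ Z) :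
    ∃ i, i < N ∧ x i * y i * z i * (N : ℝ) ^ 3 ≤ X * Y * Z := by
  have hNr : (0 : ℝ) < (N : ℝ) := by exact_mod_cast hN
  have hsum : ∑ i ∈ Finset.range N, (x i / X + y i / Y + z i / Z) ≤
      ∑ _i ∈ Finset.range N, 3 / (N : ℝ) := by
    rw [Finset.sum_add_distrib, Finset.sum_add_distrib, ← Finset.sum_div, ← Finset.sum_div,
      ← Finset.sum_div, Finset.sum_const, Finset.card_range, nsmul_eq_mul]
    have h1 : (∑ i ∈ Finset.range N, x i) / X ≤ 1 := (div_le_one hX0).mpr hX
    have h2 : (∑ i ∈ Finset.range N, y i) / Y ≤ 1 := (div_le_one hY0).mpr hY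
    have h3 : (∑ i ∈ Finset.range N, z i) / Z ≤ 1 := (div_le_one hZ0).mpr hZ
    have h4 : (N : ℝ) * (3 / (N : ℝ)) = 3 := by field_simp
    rw [h4]
    linarith
  have hne : (Finset.range N).Nonempty := Finset.nonempty_range_iff.mpr (Nat.pos_iff_ne_zero.mp hN)
  obtain ⟨i, hi, hle⟩ := Finset.exists_le_of_sum_le hne hsum
  have hiN : i < N := Finset.mem_range.mp hi
  refine ⟨i, hiN, ?_⟩
  set a := x i / X with ha
  set b := y i / Y with hb
  set c := z i / Z with hc
  have ha0 : 0 ≤ a := div_nonneg (hx i hiN) (le_of_lt hX0)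
  have hb0 : 0 ≤ b := div_nonneg (hy i hiN) (le_of_lt hY0)
  have hc0 : 0 ≤ c := div_nonneg (hz i hiN) (le_of_lt hZ0)
  have h1 := amgm3 a b c ha0 hb0 hc0
  have h2 : (a + b + c) * (N : ℝ) ≤ 3 := by
    have := hle
    rw [le_div_iff₀ hNr] at this
    exact this
  have h3 : ((a + b + c) * (N : ℝ)) ^ 3 ≤ 3 ^ 3 :=
    pow_le_pow_left₀ (by positivity) h2 3
  have h4 : a * b * c * (N : ℝ) ^ 3 ≤ 1 := by
    have h5 : 27 * (a * b * c) * (N : ℝ) ^ 3 ≤ (a + b + c) ^ 3 * (N : ℝ) ^ 3 :=
      mul_le_mul_of_nonneg_right h1 (by positivity)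
    have h6 : (a + b + c) ^ 3 * (N : ℝ) ^ 3 = ((a + b + c) * (N : ℝ)) ^ 3 := by ring
    nlinarith
  have hxa : x i = a * X := by rw [ha]; field_simp
  have hyb : y i = b * Y := by rw [hb]; field_simp
  have hzc : z i = c * Z := by rw [hc]; field_simp
  rw [hxa, hyb, hzc]
  have h7 : a * X * (b * Y) * (c * Z) * (N : ℝ) ^ 3 = (a * b * c * (N : ℝ) ^ 3) * (X * Y * Z) := by
    ring
  rw [h7]
  have hXYZ : 0 < X * Y * Z := by positivity
  nlinarith

/-- Concave chain lemma.  Let `q 0, …, q (K + 2)` be points of the unit square whose first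
coordinates are weakly increasing and such that the path turns clockwise at each inner point.
Then one of the `K + 1` turns has determinant at most `18 / (K + 1) ^ 3`. -/
theorem concave_chain (q : ℕ → ℝ × ℝ) (K : ℕ)
    (hsq : ∀ i, i ≤ K + 2 → 0 ≤ (q i).1 ∧ (q i).1 ≤ 1 ∧ 0 ≤ (q i).2 ∧ (q i).2 ≤ 1)
    (hx : ∀ i, i < K + 2 → (q i).1 ≤ (q (i + 1)).1)
    (hturn : ∀ i, i < K + 1 →
      0 < ((q (i + 1)).2 - (q i).2) * ((q (i + 2)).1 - (q (i + 1)).1) -
          ((q (i + 1)).1 - (q i).1) * ((q (i + 2)).2 - (q (i + 1)).2)) :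
    ∃ i, i < K + 1 ∧
      (((q (i + 1)).2 - (q i).2) * ((q (i + 2)).1 - (q (i + 1)).1) -
          ((q (i + 1)).1 - (q i).1) * ((q (i + 2)).2 - (q (i + 1)).2)) *
        ((K : ℝ) + 1) ^ 3 ≤ 18 := by
  set a : ℕ → ℝ := fun i => (q (i + 1)).1 - (q i).1 with ha
  set b : ℕ → ℝ := fun i => (q (i + 1)).2 - (q i).2 with hb
  set nrm : ℕ → ℝ := fun i => a i + |b i| with hnrm
  set φ : ℕ → ℝ := fun i => b i / nrm i with hφ
  have ha0 : ∀ i, i < K + 2 → 0 ≤ a i := fun i hi => sub_nonneg.mpr (hx i hi)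
  have hT : ∀ i, i < K + 1 → 0 < b i * a (i + 1) - a i * b (i + 1) := fun i hi => hturn i hi
  have hnrm_nonneg : ∀ i, i < K + 2 → 0 ≤ nrm i := fun i hi =>
    add_nonneg (ha0 i hi) (abs_nonneg _)
  have hnrm_pos : ∀ i, i < K + 2 → 0 < nrm i := by
    intro i hi
    rcases Nat.lt_or_ge i (K + 1) with h1 | h1
    · have ht := hT i h1
      by_contra hcon
      have hz : nrm i = 0 := le_antisymm (not_lt.mp hcon) (hnrm_nonneg i hi)
      have hai : a i = 0 := by
        have h1' := ha0 i hi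
        have h2' := abs_nonneg (b i)
        have : a i + |b i| = 0 := hz
        linarith
      have hbi : b i = 0 := by
        have h2' := abs_nonneg (b i)
        have : a i + |b i| = 0 := hz
        have h3' : |b i| = 0 := by linarith [ha0 i hi]
        exact abs_eq_zero.mp h3'
      rw [hai, hbi] at ht
      simp at ht
    · obtain ⟨j, rfl⟩ : ∃ j, i = j + 1 := ⟨i - 1, by omega⟩
      have ht := hT j (by omega)
      by_contra hcon
      have hz : nrm (j + 1) = 0 := le_antisymm (not_lt.mp hcon) (hnrm_nonneg (j + 1) hi)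
      have hai : a (j + 1) = 0 := by
        have h2' := abs_nonneg (b (j + 1))
        have : a (j + 1) + |b (j + 1)| = 0 := hz
        linarith [ha0 (j + 1) hi]
      have hbi : b (j + 1) = 0 := by
        have : a (j + 1) + |b (j + 1)| = 0 := hz
        have h3' : |b (j + 1)| = 0 := by linarith [ha0 (j + 1) hi]
        exact abs_eq_zero.mp h3'
      rw [hai, hbi] at ht
      simp at ht
  have hkey : ∀ i, i < K + 1 →
      b i * a (i + 1) - a i * b (i + 1) ≤ nrm i * nrm (i + 1) * (φ i - φ (i + 1)) := by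
    intro i hi
    have hp1 := hnrm_pos i (by omega)
    have hp2 := hnrm_pos (i + 1) (by omega)
    have hexp : nrm i * nrm (i + 1) * (φ i - φ (i + 1)) = b i * nrm (i + 1) - b (i + 1) * nrm i := by
      simp only [hφ]
      field_simp
    rw [hexp]
    have ht := hT i hi
    have h1 := ha0 i (by omega)
    have h2 := ha0 (i + 1) (by omega)
    simp only [hnrm]
    rcases le_or_gt 0 (b i) with hb1 | hb1
    · rw [abs_of_nonneg hb1]
      have : b (i + 1) ≤ |b (i + 1)| := le_abs_self _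
      nlinarith
    · rcases le_or_gt (b (i + 1)) 0 with hb2 | hb2
      · rw [abs_of_neg hb1, abs_of_nonpos hb2]
        nlinarith
      · exfalso
        nlinarith
  have hφdec : ∀ i, i < K + 1 → φ (i + 1) < φ i := by
    intro i hi
    have hp1 := hnrm_pos i (by omega)
    have hp2 := hnrm_pos (i + 1) (by omega)
    have h := lt_of_lt_of_le (hT i hi) (hkey i hi)
    have hpp : 0 < nrm i * nrm (i + 1) := mul_pos hp1 hp2
    have : 0 < φ i - φ (i + 1) := by
      by_contra hcon
      have : φ i - φ (i + 1) ≤ 0 := not_lt.mp hcon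
      nlinarith
    linarith
  have hφanti : ∀ j, j < K + 2 → ∀ i, i ≤ j → φ j ≤ φ i := by
    intro j
    induction j with
    | zero =>
      intro _ i hi
      have : i = 0 := by omega
      rw [this]
    | succ j ih =>
      intro hj i hi
      rcases Nat.eq_or_lt_of_le hi with h | h
      · rw [h]
      · have h1 := ih (by omega) i (by omega)
        have h2 := hφdec j (by omega)
        linarith
  have hφabs : ∀ i, i < K + 2 → |φ i| ≤ 1 := by
    intro i hi
    have hp := hnrm_pos i hi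
    simp only [hφ]
    rw [abs_div, abs_of_pos hp, div_le_one hp]
    simp only [hnrm]
    linarith [ha0 i hi]
  have hbsign : ∀ j, j < K + 2 → 0 ≤ b j → ∀ i, i ≤ j → 0 ≤ b i := by
    intro j hj hbj i hi
    have hpj := hnrm_pos j hj
    have hpi := hnrm_pos i (by omega)
    have h1 : 0 ≤ φ j := div_nonneg hbj (le_of_lt hpj)
    have h2 : 0 ≤ φ i := le_trans h1 (hφanti j hj i hi)
    have h3 : b i = φ i * nrm i := by
      simp only [hφ]
      field_simp
    rw [h3]
    exact mul_nonneg h2 (le_of_lt hpi)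
  have hSb : ∀ j, j ≤ K + 2 → ∑ i ∈ Finset.range j, |b i| ≤ 2 - (q 0).2 - (q j).2 := by
    intro j
    induction j with
    | zero =>
      intro _
      simp only [Finset.range_zero, Finset.sum_empty]
      linarith [(hsq 0 (by omega)).2.2.2]
    | succ j ih =>
      intro hj
      rcases le_or_gt 0 (b j) with hbj | hbj
      · have hall : ∀ i ∈ Finset.range (j + 1), |b i| = b i := by
          intro i hi
          have := Finset.mem_range.mp hi
          exact abs_of_nonneg (hbsign j (by omega) hbj i (by omega))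
        rw [Finset.sum_congr rfl hall]
        have htel : ∑ i ∈ Finset.range (j + 1), b i = (q (j + 1)).2 - (q 0).2 := by
          simp only [hb]
          exact Finset.sum_range_sub (fun i => (q i).2) (j + 1)
        rw [htel]
        linarith [(hsq (j + 1) hj).2.2.2]
      · rw [Finset.sum_range_succ, abs_of_neg hbj]
        have h1 := ih (by omega)
        have h2 : b j = (q (j + 1)).2 - (q j).2 := rfl
        linarith
  have hSa : ∑ i ∈ Finset.range (K + 2), a i ≤ 1 := by
    have htel : ∑ i ∈ Finset.range (K + 2), a i = (q (K + 2)).1 - (q 0).1 := by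
      simp only [ha]
      exact Finset.sum_range_sub (fun i => (q i).1) (K + 2)
    rw [htel]
    linarith [(hsq (K + 2) (le_refl _)).2.1, (hsq 0 (by omega)).1]
  have hSn : ∑ i ∈ Finset.range (K + 2), nrm i ≤ 3 := by
    simp only [hnrm]
    rw [Finset.sum_add_distrib]
    have h1 := hSb (K + 2) (le_refl _)
    linarith [(hsq 0 (by omega)).2.2.1, (hsq (K + 2) (le_refl _)).2.2.1]
  have hX : ∑ i ∈ Finset.range (K + 1), nrm i ≤ 3 := by
    have h1 : ∑ i ∈ Finset.range (K + 2), nrm i =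
        ∑ i ∈ Finset.range (K + 1), nrm i + nrm (K + 1) := Finset.sum_range_succ _ _
    linarith [hnrm_nonneg (K + 1) (by omega)]
  have hY : ∑ i ∈ Finset.range (K + 1), nrm (i + 1) ≤ 3 := by
    have h1 : ∑ i ∈ Finset.range (K + 2), nrm i =
        ∑ i ∈ Finset.range (K + 1), nrm (i + 1) + nrm 0 := Finset.sum_range_succ' _ _
    linarith [hnrm_nonneg 0 (by omega)]
  have hZ : ∑ i ∈ Finset.range (K + 1), (φ i - φ (i + 1)) ≤ 2 := by
    rw [Finset.sum_range_sub']
    have h1 := abs_le.mp (hφabs 0 (by omega))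
    have h2 := abs_le.mp (hφabs (K + 1) (by omega))
    linarith [h1.2, h2.1]
  obtain ⟨i, hi, hle⟩ := three_sum_pigeon (K + 1) (Nat.succ_pos K) (fun i => nrm i)
    (fun i => nrm (i + 1)) (fun i => φ i - φ (i + 1))
    (fun i hi => hnrm_nonneg i (by omega)) (fun i hi => hnrm_nonneg (i + 1) (by omega))
    (fun i hi => by linarith [hφdec i hi]) 3 3 2 (by norm_num) (by norm_num) (by norm_num)
    hX hY hZ
  refine ⟨i, hi, ?_⟩
  have h1 := hkey i hi
  have hcast : ((K + 1 : ℕ) : ℝ) = (K : ℝ) + 1 := by push_cast; ring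
  rw [hcast] at hle
  have hpos : (0 : ℝ) ≤ ((K : ℝ) + 1) ^ 3 := by positivity
  have h2 : (b i * a (i + 1) - a i * b (i + 1)) * ((K : ℝ) + 1) ^ 3 ≤
      nrm i * nrm (i + 1) * (φ i - φ (i + 1)) * ((K : ℝ) + 1) ^ 3 :=
    mul_le_mul_of_nonneg_right h1 hpos
  have h3 : nrm i * nrm (i + 1) * (φ i - φ (i + 1)) * ((K : ℝ) + 1) ^ 3 ≤ 3 * 3 * 2 := hle
  have h4 : (b i * a (i + 1) - a i * b (i + 1)) * ((K : ℝ) + 1) ^ 3 ≤ 18 := by linarith
  exact h4

end Vale.Agent.Lib.P036.H65
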