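import Mathlib
import Vale.Agent.Lib.P036.H65.Defs
import Vale.Agent.Lib.P036.H65.Chain
import Vale.Agent.Lib.P036.H65.Concave

namespace Vale.Agent.Lib.P036.H65

/-- No point of `P` is a nested convex combination of four other points of `P`. -/
def NoInside (P : Finset (ℝ × ℝ)) : Prop :=
  ∀ A ∈ P, ∀ B ∈ P, ∀ a ∈ P, ∀ c ∈ P, ∀ b ∈ P, b ≠ A → b ≠ B → b ≠ a → b ≠ c →
    ∀ r s t : ℝ, 0 ≤ r → r ≤ 1 → 0 ≤ s → s ≤ 1 → 0 ≤ t → t ≤ 1 →
      b ≠ ((1 - s) * ((1 - r) * A.1 + r * B.1) + s * ((1 - t) * a.1 + t * c.1),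
           (1 - s) * ((1 - r) * A.2 + r * B.2) + s * ((1 - t) * a.2 + t * c.2))

theorem noInside_of_convexPosition (P : Finset (ℝ × ℝ))
    (hconv : ∀ p ∈ P, p ∉ convexHull ℝ ((P.erase p : Finset (ℝ × ℝ)) : Set (ℝ × ℝ))) :
    NoInside P := by
  intro A hA B hB a ha c hc b hb hbA hbB hba hbc r s t hr0 hr1 hs0 hs1 ht0 ht1 heq
  apply hconv b hb
  have hsub : ((P.erase b : Finset (ℝ × ℝ)) : Set (ℝ × ℝ)) ⊆
      convexHull ℝ ((P.erase b : Finset (ℝ × ℝ)) : Set (ℝ × ℝ)) := subset_convexHull ℝ _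
  have hcv := convex_convexHull ℝ ((P.erase b : Finset (ℝ × ℝ)) : Set (ℝ × ℝ))
  have mA : A ∈ convexHull ℝ ((P.erase b : Finset (ℝ × ℝ)) : Set (ℝ × ℝ)) :=
    hsub (Finset.mem_coe.mpr (Finset.mem_erase.mpr ⟨fun h => hbA h.symm, hA⟩))
  have mB : B ∈ convexHull ℝ ((P.erase b : Finset (ℝ × ℝ)) : Set (ℝ × ℝ)) :=
    hsub (Finset.mem_coe.mpr (Finset.mem_erase.mpr ⟨fun h => hbB h.symm, hB⟩))
  have ma : a ∈ convexHull ℝ ((P.erase b : Finset (ℝ × ℝ)) : Set (ℝ × ℝ)) :=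
    hsub (Finset.mem_coe.mpr (Finset.mem_erase.mpr ⟨fun h => hba h.symm, ha⟩))
  have mc : c ∈ convexHull ℝ ((P.erase b : Finset (ℝ × ℝ)) : Set (ℝ × ℝ)) :=
    hsub (Finset.mem_coe.mpr (Finset.mem_erase.mpr ⟨fun h => hbc h.symm, hc⟩))
  have m1 : (1 - r) • A + r • B ∈ convexHull ℝ ((P.erase b : Finset (ℝ × ℝ)) : Set (ℝ × ℝ)) :=
    hcv mA mB (by linarith) hr0 (by ring)
  have m2 : (1 - t) • a + t • c ∈ convexHull ℝ ((P.erase b : Finset (ℝ × ℝ)) : Set (ℝ × ℝ)) :=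
    hcv ma mc (by linarith) ht0 (by ring)
  have m3 : (1 - s) • ((1 - r) • A + r • B) + s • ((1 - t) • a + t • c) ∈
      convexHull ℝ ((P.erase b : Finset (ℝ × ℝ)) : Set (ℝ × ℝ)) :=
    hcv m1 m2 (by linarith) hs0 (by ring)
  have hb_eq : b = (1 - s) • ((1 - r) • A + r • B) + s • ((1 - t) • a + t • c) := by
    rw [heq]
    apply Prod.ext
    · simp only [Prod.fst_add, Prod.smul_fst, smul_eq_mul]
    · simp only [Prod.snd_add, Prod.smul_snd, smul_eq_mul]
  have key : ∀ x : ℝ × ℝ, x = (1 - s) • ((1 - r) • A + r • B) + s • ((1 - t) • a + t • c) →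
      x ∈ convexHull ℝ ((P.erase b : Finset (ℝ × ℝ)) : Set (ℝ × ℝ)) := by
    intro x hx
    rw [hx]
    exact m3
  exact key b hb_eq

theorem noInside_refl (P : Finset (ℝ × ℝ)) (h : NoInside P) [DecidableEq (ℝ × ℝ)] :
    NoInside (P.image refl) := by
  intro A hA B hB a ha c hc b hb hbA hbB hba hbc r s t hr0 hr1 hs0 hs1 ht0 ht1 heq
  obtain ⟨A', hA', rfl⟩ := Finset.mem_image.mp hA
  obtain ⟨B', hB', rfl⟩ := Finset.mem_image.mp hB
  obtain ⟨a', ha', rfl⟩ := Finset.mem_image.mp ha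
  obtain ⟨c', hc', rfl⟩ := Finset.mem_image.mp hc
  obtain ⟨b', hb', rfl⟩ := Finset.mem_image.mp hb
  apply h A' hA' B' hB' a' ha' c' hc' b' hb' (fun e => hbA (by rw [e])) (fun e => hbB (by rw [e]))
    (fun e => hba (by rw [e])) (fun e => hbc (by rw [e])) r s t hr0 hr1 hs0 hs1 ht0 ht1
  unfold refl at heq
  simp only [Prod.mk.injEq] at heq
  apply Prod.ext
  · exact heq.1
  · simp only
    linarith [heq.2]

/-- Arithmetic core: a point `b` strictly above the line `AB` and strictly below the line `ac`,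
with first coordinates ordered `A ≤ a ≤ b ≤ c ≤ B`, is a nested convex combination. -/
theorem inside_arith (A B a b c : ℝ × ℝ) (h1 : A.1 ≤ a.1) (h2 : a.1 ≤ b.1) (h3 : b.1 ≤ c.1)
    (h4 : c.1 ≤ B.1)
    (hside : 0 < (B.1 - A.1) * (b.2 - A.2) - (B.2 - A.2) * (b.1 - A.1))
    (hT : (b.2 - a.2) * (c.1 - b.1) - (b.1 - a.1) * (c.2 - b.2) < 0) :
    ∃ r s t : ℝ, 0 ≤ r ∧ r ≤ 1 ∧ 0 ≤ s ∧ s ≤ 1 ∧ 0 ≤ t ∧ t ≤ 1 ∧
      b = ((1 - s) * ((1 - r) * A.1 + r * B.1) + s * ((1 - t) * a.1 + t * c.1),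
           (1 - s) * ((1 - r) * A.2 + r * B.2) + s * ((1 - t) * a.2 + t * c.2)) := by
  have hac : a.1 < c.1 := by
    by_contra hcon
    have h5 : c.1 ≤ a.1 := not_lt.mp hcon
    have e1 : c.1 - b.1 = 0 := by linarith
    have e2 : b.1 - a.1 = 0 := by linarith
    rw [e1, e2] at hT
    simp at hT
  have hAB : A.1 < B.1 := by linarith
  have hac' : 0 < c.1 - a.1 := by linarith
  have hAB' : 0 < B.1 - A.1 := by linarith
  obtain ⟨t, ht⟩ : ∃ t : ℝ, t * (c.1 - a.1) = b.1 - a.1 :=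
    ⟨(b.1 - a.1) / (c.1 - a.1), by field_simp⟩
  obtain ⟨r, hr⟩ : ∃ r : ℝ, r * (B.1 - A.1) = b.1 - A.1 :=
    ⟨(b.1 - A.1) / (B.1 - A.1), by field_simp⟩
  have ht0 : 0 ≤ t := by
    by_contra hcon
    have : t < 0 := not_le.mp hcon
    nlinarith
  have ht1 : t ≤ 1 := by
    by_contra hcon
    have : 1 < t := not_le.mp hcon
    nlinarith
  have hr0 : 0 ≤ r := by
    by_contra hcon
    have : r < 0 := not_le.mp hcon
    nlinarith
  have hr1 : r ≤ 1 := by
    by_contra hcon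
    have : 1 < r := not_le.mp hcon
    nlinarith
  have hx1 : (1 - t) * a.1 + t * c.1 = b.1 := by linear_combination ht
  have hx2 : (1 - r) * A.1 + r * B.1 = b.1 := by linear_combination hr
  have hy1 : 0 < ((1 - t) * a.2 + t * c.2) - b.2 := by
    have he : (((1 - t) * a.2 + t * c.2) - b.2) * (c.1 - a.1) =
        -((b.2 - a.2) * (c.1 - b.1) - (b.1 - a.1) * (c.2 - b.2)) := by
      linear_combination (c.2 - a.2) * ht
    by_contra hcon
    have : ((1 - t) * a.2 + t * c.2) - b.2 ≤ 0 := not_lt.mp hcon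
    nlinarith
  have hy2 : 0 < b.2 - ((1 - r) * A.2 + r * B.2) := by
    have he : (b.2 - ((1 - r) * A.2 + r * B.2)) * (B.1 - A.1) =
        (B.1 - A.1) * (b.2 - A.2) - (B.2 - A.2) * (b.1 - A.1) := by
      linear_combination (-(B.2 - A.2)) * hr
    by_contra hcon
    have : b.2 - ((1 - r) * A.2 + r * B.2) ≤ 0 := not_lt.mp hcon
    nlinarith
  have hden : 0 < ((1 - t) * a.2 + t * c.2) - ((1 - r) * A.2 + r * B.2) := by linarith
  obtain ⟨s, hs⟩ : ∃ s : ℝ, s * (((1 - t) * a.2 + t * c.2) - ((1 - r) * A.2 + r * B.2)) =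
      b.2 - ((1 - r) * A.2 + r * B.2) :=
    ⟨(b.2 - ((1 - r) * A.2 + r * B.2)) / (((1 - t) * a.2 + t * c.2) - ((1 - r) * A.2 + r * B.2)),
      by field_simp⟩
  have hs0 : 0 ≤ s := by
    by_contra hcon
    have : s < 0 := not_le.mp hcon
    nlinarith
  have hs1 : s ≤ 1 := by
    by_contra hcon
    have : 1 < s := not_le.mp hcon
    nlinarith
  refine ⟨r, s, t, hr0, hr1, hs0, hs1, ht0, ht1, ?_⟩
  apply Prod.ext
  · simp only
    rw [hx1, hx2]
    ring
  · simp only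
    linear_combination (-1 : ℝ) * hs

/-- Upper chain estimate.  Let `P` (in the unit square, with `NoInside`) be enumerated with
weakly increasing first coordinates, and let `U` be a set of `k ≥ 1` inner indices whose points
lie strictly to the left of the directed line from the first to the last point.  Then `P`
contains a triangle of area at most `9 / k ^ 3`. -/
theorem upper_core (P : Finset (ℝ × ℝ))
    (hsq : ∀ p ∈ P, 0 ≤ p.1 ∧ p.1 ≤ 1 ∧ 0 ≤ p.2 ∧ p.2 ≤ 1) (hNI : NoInside P)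
    (p : ℕ → ℝ × ℝ) (himg : (Finset.range P.card).image p = P)
    (hxm : ∀ i j, i < j → j < P.card → (p i).1 ≤ (p j).1)
    (k : ℕ) (hk : 0 < k) (U : Finset ℕ)
    (hU : ∀ i ∈ U, 0 < i ∧ i < P.card - 1 ∧
      0 < ((p (P.card - 1)).1 - (p 0).1) * ((p i).2 - (p 0).2) -
          ((p (P.card - 1)).2 - (p 0).2) * ((p i).1 - (p 0).1))
    (hUk : U.card = k) :
    ∃ a ∈ P, ∃ b ∈ P, ∃ c ∈ P, a ≠ b ∧ b ≠ c ∧ a ≠ c ∧ triArea a b c * (k : ℝ) ^ 3 ≤ 9 := by
  classical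
  obtain ⟨n, hn⟩ : ∃ n, n = P.card := ⟨_, rfl⟩
  rw [← hn] at himg hxm hU
  have hinj : Set.InjOn p (Finset.range n : Set ℕ) := by
    apply Finset.card_image_iff.mp
    rw [himg, Finset.card_range, hn]
  have hmem : ∀ i, i < n → p i ∈ P := by
    intro i hi
    rw [← himg]
    exact Finset.mem_image_of_mem p (Finset.mem_range.mpr hi)
  have hne : ∀ i j, i < n → j < n → i ≠ j → p i ≠ p j := by
    intro i j hi hj hij h
    exact hij (hinj (Finset.mem_coe.mpr (Finset.mem_range.mpr hi))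
      (Finset.mem_coe.mpr (Finset.mem_range.mpr hj)) h)
  obtain ⟨u0, hu0⟩ : U.Nonempty := Finset.card_pos.mp (by omega)
  have hn3 : 3 ≤ n := by
    have := hU u0 hu0
    omega
  have h0U : 0 ∉ U := fun h => by
    have := (hU 0 h).1
    omega
  have hlU : n - 1 ∉ U := fun h => by
    have := (hU _ h).2.1
    omega
  obtain ⟨I, hIdef⟩ : ∃ I : Finset ℕ, I = insert 0 (insert (n - 1) U) := ⟨_, rfl⟩
  have hIcard : I.card = k + 2 := by
    rw [hIdef, Finset.card_insert_of_notMem, Finset.card_insert_of_notMem hlU, hUk]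
    simp only [Finset.mem_insert, not_or]
    exact ⟨by omega, h0U⟩
  have hIlt : ∀ i ∈ I, i < n := by
    intro i hi
    rw [hIdef] at hi
    simp only [Finset.mem_insert] at hi
    rcases hi with h | h | h
    · omega
    · omega
    · have := (hU i h).2.1
      omega
  have hIU : ∀ i ∈ I, 0 < i → i < n - 1 → i ∈ U := by
    intro i hi h0 h1
    rw [hIdef] at hi
    simp only [Finset.mem_insert] at hi
    rcases hi with h | h | h
    · omega
    · omega
    · exact h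
  obtain ⟨σ, hσdef⟩ : ∃ σ : Fin (k + 2) ↪o ℕ, σ = I.orderEmbOfFin hIcard := ⟨_, rfl⟩
  have hσmem : ∀ j : Fin (k + 2), σ j ∈ I := by
    intro j
    rw [hσdef]
    exact Finset.orderEmbOfFin_mem I hIcard j
  have hσlt : ∀ i j (hi : i < k + 2) (hj : j < k + 2), i < j → σ ⟨i, hi⟩ < σ ⟨j, hj⟩ :=
    fun i j hi hj hij => σ.strictMono (Fin.mk_lt_mk.mpr hij)
  obtain ⟨q, hqdef⟩ : ∃ q : ℕ → ℝ × ℝ,
      q = fun j => if h : j < k + 2 then p (σ ⟨j, h⟩) else (0, 0) := ⟨_, rfl⟩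
  have hq : ∀ j (h : j < k + 2), q j = p (σ ⟨j, h⟩) := by
    intro j h
    rw [hqdef]
    simp only [dif_pos h]
  have hqP : ∀ j, j < k + 2 → q j ∈ P := by
    intro j hj
    rw [hq j hj]
    exact hmem _ (hIlt _ (hσmem _))
  have hqne : ∀ i j, i < j → j < k + 2 → q i ≠ q j := by
    intro i j hij hj
    have hi : i < k + 2 := lt_trans hij hj
    rw [hq i hi, hq j hj]
    exact hne _ _ (hIlt _ (hσmem _)) (hIlt _ (hσmem _)) (ne_of_lt (hσlt i j hi hj hij))
  have hqx : ∀ i j, i < j → j < k + 2 → (q i).1 ≤ (q j).1 := by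
    intro i j hij hj
    have hi : i < k + 2 := lt_trans hij hj
    rw [hq i hi, hq j hj]
    exact hxm _ _ (hσlt i j hi hj hij) (hIlt _ (hσmem _))
  have harea : ∀ i, triArea (q i) (q (i + 1)) (q (i + 2)) =
      |((q (i + 1)).2 - (q i).2) * ((q (i + 2)).1 - (q (i + 1)).1) -
          ((q (i + 1)).1 - (q i).1) * ((q (i + 2)).2 - (q (i + 1)).2)| / 2 := by
    intro i
    unfold triArea
    have : ((q (i + 1)).1 - (q i).1) * ((q (i + 2)).2 - (q i).2) -
        ((q (i + 1)).2 - (q i).2) * ((q (i + 2)).1 - (q i).1) =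
        -(((q (i + 1)).2 - (q i).2) * ((q (i + 2)).1 - (q (i + 1)).1) -
          ((q (i + 1)).1 - (q i).1) * ((q (i + 2)).2 - (q (i + 1)).2)) := by ring
    rw [this, abs_neg]
  have hnoneg : ∀ i, i < k →
      ¬ (((q (i + 1)).2 - (q i).2) * ((q (i + 2)).1 - (q (i + 1)).1) -
          ((q (i + 1)).1 - (q i).1) * ((q (i + 2)).2 - (q (i + 1)).2) < 0) := by
    intro i hi hneg
    have h0 : i < k + 2 := by omega
    have h1 : i + 1 < k + 2 := by omega
    have h2 : i + 2 < k + 2 := by omega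
    have hs01 := hσlt i (i + 1) h0 h1 (by omega)
    have hs12 := hσlt (i + 1) (i + 2) h1 h2 (by omega)
    have hs2n := hIlt _ (hσmem ⟨i + 2, h2⟩)
    have hs1U : σ ⟨i + 1, h1⟩ ∈ U := hIU _ (hσmem _) (by omega) (by omega)
    have hside := (hU _ hs1U).2.2
    have hA : (p 0).1 ≤ (q i).1 := by
      rw [hq i h0]
      rcases Nat.eq_zero_or_pos (σ ⟨i, h0⟩) with hz | hz
      · rw [hz]
      · exact hxm 0 _ hz (hIlt _ (hσmem _))
    have hB : (q (i + 2)).1 ≤ (p (n - 1)).1 := by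
      rw [hq (i + 2) h2]
      rcases Nat.lt_or_ge (σ ⟨i + 2, h2⟩) (n - 1) with hz | hz
      · exact hxm _ _ hz (by omega)
      · have : σ ⟨i + 2, h2⟩ = n - 1 := by omega
        rw [this]
    rw [← hq (i + 1) h1] at hside
    obtain ⟨r, s, t, hr0, hr1, hs0, hs1, ht0, ht1, heq⟩ :=
      inside_arith (p 0) (p (n - 1)) (q i) (q (i + 1)) (q (i + 2)) hA
        (hqx i (i + 1) (by omega) h1) (hqx (i + 1) (i + 2) (by omega) h2) hB hside hneg
    refine hNI (p 0) (hmem 0 (by omega)) (p (n - 1)) (hmem (n - 1) (by omega)) (q i) (hqP i h0)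
      (q (i + 2)) (hqP (i + 2) h2) (q (i + 1)) (hqP (i + 1) h1) ?_ ?_ ?_ ?_
      r s t hr0 hr1 hs0 hs1 ht0 ht1 heq
    · rw [hq (i + 1) h1]
      exact hne _ _ (by omega) (by omega) (by omega)
    · rw [hq (i + 1) h1]
      exact hne _ _ (by omega) (by omega) (by omega)
    · exact (hqne i (i + 1) (by omega) h1).symm
    · exact hqne (i + 1) (i + 2) (by omega) h2
  by_cases hall : ∀ i, i < k →
      0 < ((q (i + 1)).2 - (q i).2) * ((q (i + 2)).1 - (q (i + 1)).1) -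
          ((q (i + 1)).1 - (q i).1) * ((q (i + 2)).2 - (q (i + 1)).2)
  · obtain ⟨K, rfl⟩ : ∃ K, k = K + 1 := ⟨k - 1, by omega⟩
    obtain ⟨i, hi, hle⟩ := concave_chain q K
      (fun i hi => hsq _ (hqP i (by omega)))
      (fun i hi => hqx i (i + 1) (by omega) (by omega)) hall
    refine ⟨q i, hqP i (by omega), q (i + 1), hqP (i + 1) (by omega), q (i + 2),
      hqP (i + 2) (by omega), hqne i (i + 1) (by omega) (by omega),
      hqne (i + 1) (i + 2) (by omega) (by omega), hqne i (i + 2) (by omega) (by omega), ?_⟩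
    rw [harea i, abs_of_pos (hall i hi)]
    have hcast : ((K + 1 : ℕ) : ℝ) = (K : ℝ) + 1 := by push_cast; ring
    rw [hcast]
    linarith
  · push Not at hall
    obtain ⟨i, hi, hTi⟩ := hall
    have hzero : ((q (i + 1)).2 - (q i).2) * ((q (i + 2)).1 - (q (i + 1)).1) -
          ((q (i + 1)).1 - (q i).1) * ((q (i + 2)).2 - (q (i + 1)).2) = 0 := by
      rcases eq_or_lt_of_le hTi with h | h
      · exact h
      · exact absurd h (hnoneg i hi)
    refine ⟨q i, hqP i (by omega), q (i + 1), hqP (i + 1) (by omega), q (i + 2),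
      hqP (i + 2) (by omega), hqne i (i + 1) (by omega) (by omega),
      hqne (i + 1) (i + 2) (by omega) (by omega), hqne i (i + 2) (by omega) (by omega), ?_⟩
    rw [harea i, hzero]
    simp

end Vale.Agent.Lib.P036.H65
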