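import Mathlib
import Vale.Agent.Lib.P036.H65.Defs
import Vale.Agent.Lib.P036.H65.Chain
import Vale.Agent.Lib.P036.H65.Convex

namespace Vale.Agent.Lib.P036.H65

/-- Every set of `n ≥ 4` points of the unit square in convex position contains a triangle of area
at most `72 / (n - 2) ^ 3`. -/
theorem convex_position_upper (P : Finset (ℝ × ℝ))
    (hsq : ∀ p ∈ P, 0 ≤ p.1 ∧ p.1 ≤ 1 ∧ 0 ≤ p.2 ∧ p.2 ≤ 1)
    (hconv : ∀ p ∈ P, p ∉ convexHull ℝ ((P.erase p : Finset (ℝ × ℝ)) : Set (ℝ × ℝ)))
    (h4 : 4 ≤ P.card) :
    ∃ a ∈ P, ∃ b ∈ P, ∃ c ∈ P, a ≠ b ∧ b ≠ c ∧ a ≠ c ∧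
      triArea a b c * ((P.card : ℝ) - 2) ^ 3 ≤ 72 := by
  classical
  have hNI := noInside_of_convexPosition P hconv
  obtain ⟨p, himg, hlex⟩ := exists_lex_enum P
  have hxm : ∀ i j, i < j → j < P.card → (p i).1 ≤ (p j).1 := by
    intro i j hij hj
    rcases hlex i j hij hj with h | h
    · exact le_of_lt h
    · exact le_of_eq h.1
  have hinj : Set.InjOn p (Finset.range P.card : Set ℕ) := by
    apply Finset.card_image_iff.mp
    rw [himg, Finset.card_range]
  have hmem : ∀ i, i < P.card → p i ∈ P := by
    intro i hi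
    rw [← himg]
    exact Finset.mem_image_of_mem p (Finset.mem_range.mpr hi)
  have hne : ∀ i j, i < P.card → j < P.card → i ≠ j → p i ≠ p j := by
    intro i j hi hj hij h
    exact hij (hinj (Finset.mem_coe.mpr (Finset.mem_range.mpr hi))
      (Finset.mem_coe.mpr (Finset.mem_range.mpr hj)) h)
  obtain ⟨side, hside⟩ : ∃ side : ℕ → ℝ, side = fun i =>
      ((p (P.card - 1)).1 - (p 0).1) * ((p i).2 - (p 0).2) -
        ((p (P.card - 1)).2 - (p 0).2) * ((p i).1 - (p 0).1) := ⟨_, rfl⟩
  obtain ⟨Mid, hMid⟩ : ∃ Mid : Finset ℕ,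
      Mid = (Finset.range P.card).filter (fun i => 0 < i ∧ i < P.card - 1) := ⟨_, rfl⟩
  have hMidmem : ∀ i, i ∈ Mid ↔ 0 < i ∧ i < P.card - 1 := by
    intro i
    rw [hMid, Finset.mem_filter, Finset.mem_range]
    constructor
    · exact fun h => h.2
    · exact fun h => ⟨by omega, h⟩
  have hMidcard : Mid.card = P.card - 2 := by
    have : Mid = Finset.Ioo 0 (P.card - 1) := by
      ext i
      rw [hMidmem, Finset.mem_Ioo]
    rw [this, Nat.card_Ioo]
    omega
  by_cases hZ : ∃ i ∈ Mid, side i = 0
  · obtain ⟨i, hi, hi0⟩ := hZ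
    have hi' := (hMidmem i).mp hi
    refine ⟨p 0, hmem 0 (by omega), p i, hmem i (by omega), p (P.card - 1),
      hmem _ (by omega), hne _ _ (by omega) (by omega) (by omega),
      hne _ _ (by omega) (by omega) (by omega), hne _ _ (by omega) (by omega) (by omega), ?_⟩
    have harea : triArea (p 0) (p i) (p (P.card - 1)) = 0 := by
      unfold triArea
      have : ((p i).1 - (p 0).1) * ((p (P.card - 1)).2 - (p 0).2) -
          ((p i).2 - (p 0).2) * ((p (P.card - 1)).1 - (p 0).1) = -side i := by
        rw [hside]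
        ring
      rw [this, hi0]
      simp
    rw [harea]
    simp
  · push Not at hZ
    obtain ⟨U, hUdef⟩ : ∃ U : Finset ℕ, U = Mid.filter (fun i => 0 < side i) := ⟨_, rfl⟩
    obtain ⟨W, hWdef⟩ : ∃ W : Finset ℕ, W = Mid.filter (fun i => side i < 0) := ⟨_, rfl⟩
    have hUW : U.card + W.card = P.card - 2 := by
      have h1 := Finset.card_filter_add_card_filter_not (s := Mid) (fun i => 0 < side i)
      have h2 : Mid.filter (fun i => ¬ 0 < side i) = W := by
        rw [hWdef]
        apply Finset.filter_congr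
        intro i hi
        have := hZ i hi
        constructor
        · intro h
          exact lt_of_le_of_ne (not_lt.mp h) this
        · intro h
          exact not_lt.mpr (le_of_lt h)
      rw [h2, ← hUdef, hMidcard] at h1
      exact h1
    have hnr : (4 : ℝ) ≤ (P.card : ℝ) := by exact_mod_cast h4
    rcases Nat.lt_or_ge (2 * U.card) (P.card - 2) with hcase | hcase
    · -- the lower side is the large one: reflect
      have hWk : 0 < W.card := by omega
      have hcard' : (P.image refl).card = P.card :=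
        Finset.card_image_of_injective P refl_injective
      have hsq' : ∀ x ∈ P.image refl, 0 ≤ x.1 ∧ x.1 ≤ 1 ∧ 0 ≤ x.2 ∧ x.2 ≤ 1 := by
        intro x hx
        obtain ⟨y, hy, rfl⟩ := Finset.mem_image.mp hx
        have := hsq y hy
        unfold refl
        refine ⟨this.1, this.2.1, ?_, ?_⟩
        · simp only
          linarith [this.2.2.2]
        · simp only
          linarith [this.2.2.1]
      have himg' : (Finset.range (P.image refl).card).image (fun i => refl (p i)) =
          P.image refl := by
        rw [hcard', ← himg, Finset.image_image, himg]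
        rfl
      have hxm' : ∀ i j, i < j → j < (P.image refl).card →
          (refl (p i)).1 ≤ (refl (p j)).1 := by
        intro i j hij hj
        rw [hcard'] at hj
        exact hxm i j hij hj
      have hU' : ∀ i ∈ W, 0 < i ∧ i < (P.image refl).card - 1 ∧
          0 < ((refl (p ((P.image refl).card - 1))).1 - (refl (p 0)).1) *
                ((refl (p i)).2 - (refl (p 0)).2) -
              ((refl (p ((P.image refl).card - 1))).2 - (refl (p 0)).2) *
                ((refl (p i)).1 - (refl (p 0)).1) := by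
        intro i hi
        rw [hWdef, Finset.mem_filter] at hi
        have hi' := (hMidmem i).mp hi.1
        rw [hcard']
        refine ⟨hi'.1, hi'.2, ?_⟩
        have hneg : side i < 0 := hi.2
        rw [hside] at hneg
        unfold refl
        simp only
        linarith
      obtain ⟨a, ha, b, hb, c, hc, hab, hbc, hac, hle⟩ :=
        upper_core (P.image refl) hsq' (noInside_refl P hNI) (fun i => refl (p i)) himg' hxm'
          W.card hWk W hU' rfl
      obtain ⟨a', ha', rfl⟩ := Finset.mem_image.mp ha
      obtain ⟨b', hb', rfl⟩ := Finset.mem_image.mp hb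
      obtain ⟨c', hc', rfl⟩ := Finset.mem_image.mp hc
      refine ⟨a', ha', b', hb', c', hc', fun h => hab (by rw [h]), fun h => hbc (by rw [h]),
        fun h => hac (by rw [h]), ?_⟩
      rw [triArea_refl] at hle
      have hT : 0 ≤ triArea a' b' c' := by
        unfold triArea
        positivity
      have h1 : ((P.card : ℝ) - 2) ≤ 2 * (W.card : ℝ) := by
        have h2 : P.card - 2 ≤ 2 * W.card := by omega
        have h3 : ((P.card - 2 : ℕ) : ℝ) ≤ ((2 * W.card : ℕ) : ℝ) := by exact_mod_cast h2
        rw [Nat.cast_sub (by omega)] at h3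
        push_cast at h3
        linarith
      have h2 : ((P.card : ℝ) - 2) ^ 3 ≤ (2 * (W.card : ℝ)) ^ 3 :=
        pow_le_pow_left₀ (by linarith) h1 3
      calc triArea a' b' c' * ((P.card : ℝ) - 2) ^ 3
          ≤ triArea a' b' c' * (2 * (W.card : ℝ)) ^ 3 := mul_le_mul_of_nonneg_left h2 hT
        _ = 8 * (triArea a' b' c' * (W.card : ℝ) ^ 3) := by ring
        _ ≤ 8 * 9 := by linarith
        _ = 72 := by norm_num
    · have hUk : 0 < U.card := by omega
      have hU' : ∀ i ∈ U, 0 < i ∧ i < P.card - 1 ∧
          0 < ((p (P.card - 1)).1 - (p 0).1) * ((p i).2 - (p 0).2) -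
              ((p (P.card - 1)).2 - (p 0).2) * ((p i).1 - (p 0).1) := by
        intro i hi
        rw [hUdef, Finset.mem_filter] at hi
        have hi' := (hMidmem i).mp hi.1
        refine ⟨hi'.1, hi'.2, ?_⟩
        have hpos : 0 < side i := hi.2
        rw [hside] at hpos
        exact hpos
      obtain ⟨a, ha, b, hb, c, hc, hab, hbc, hac, hle⟩ :=
        upper_core P hsq hNI p himg hxm U.card hUk U hU' rfl
      refine ⟨a, ha, b, hb, c, hc, hab, hbc, hac, ?_⟩
      have hT : 0 ≤ triArea a b c := by
        unfold triArea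
        positivity
      have h1 : ((P.card : ℝ) - 2) ≤ 2 * (U.card : ℝ) := by
        have h3 : ((P.card - 2 : ℕ) : ℝ) ≤ ((2 * U.card : ℕ) : ℝ) := by exact_mod_cast hcase
        rw [Nat.cast_sub (by omega)] at h3
        push_cast at h3
        linarith
      have h2 : ((P.card : ℝ) - 2) ^ 3 ≤ (2 * (U.card : ℝ)) ^ 3 :=
        pow_le_pow_left₀ (by linarith) h1 3
      calc triArea a b c * ((P.card : ℝ) - 2) ^ 3
          ≤ triArea a b c * (2 * (U.card : ℝ)) ^ 3 := mul_le_mul_of_nonneg_left h2 hT
        _ = 8 * (triArea a b c * (U.card : ℝ) ^ 3) := by ring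
        _ ≤ 8 * 9 := by linarith
        _ = 72 := by norm_num

end Vale.Agent.Lib.P036.H65
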