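import Mathlib
import Vale.Agent.Lib.P036.H65.Defs
import Vale.Agent.Lib.P036.H65.ConvexMain

namespace Vale.Agent.Lib.P036.H65

/-- A set of `n` points of the unit square covered by `k` sets in convex position, `n > 3 k`,
contains a triangle of area at most `72 k ^ 3 / (n - 2 k) ^ 3`. -/
theorem convex_cover_upper (P : Finset (ℝ × ℝ))
    (hsq : ∀ p ∈ P, 0 ≤ p.1 ∧ p.1 ≤ 1 ∧ 0 ≤ p.2 ∧ p.2 ≤ 1)
    (k : ℕ) (C : Fin k → Finset (ℝ × ℝ)) (hcov : ∀ p ∈ P, ∃ j, p ∈ C j)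
    (hconv : ∀ j, ∀ p ∈ C j,
      p ∉ convexHull ℝ (((C j).erase p : Finset (ℝ × ℝ)) : Set (ℝ × ℝ)))
    (hk : 3 * k < P.card) :
    ∃ a ∈ P, ∃ b ∈ P, ∃ c ∈ P, a ≠ b ∧ b ≠ c ∧ a ≠ c ∧
      triArea a b c * ((P.card : ℝ) - 2 * k) ^ 3 ≤ 72 * (k : ℝ) ^ 3 := by
  classical
  have hsub : P ⊆ Finset.univ.biUnion (fun j => C j ∩ P) := by
    intro p hp
    obtain ⟨j, hj⟩ := hcov p hp
    exact Finset.mem_biUnion.mpr ⟨j, Finset.mem_univ j, Finset.mem_inter.mpr ⟨hj, hp⟩⟩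
  have hcardle : P.card ≤ ∑ j : Fin k, (C j ∩ P).card :=
    le_trans (Finset.card_le_card hsub) Finset.card_biUnion_le
  have hex : ∃ j : Fin k, P.card ≤ k * (C j ∩ P).card := by
    by_contra hcon
    push Not at hcon
    have hkpos : 0 < k := by
      rcases Nat.eq_zero_or_pos k with h0 | h0
      · subst h0
        rw [Finset.univ_eq_empty, Finset.sum_empty] at hcardle
        omega
      · exact h0
    have hlt : ∑ j : Fin k, k * (C j ∩ P).card < ∑ _j : Fin k, P.card := by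
      apply Finset.sum_lt_sum_of_nonempty
      · exact ⟨⟨0, hkpos⟩, Finset.mem_univ _⟩
      · intro j _
        exact hcon j
    rw [← Finset.mul_sum, Finset.sum_const, Finset.card_univ, Fintype.card_fin, smul_eq_mul] at hlt
    have := Nat.lt_of_mul_lt_mul_left hlt
    omega
  obtain ⟨j, hj⟩ := hex
  obtain ⟨D, hD⟩ : ∃ D : Finset (ℝ × ℝ), D = C j ∩ P := ⟨_, rfl⟩
  rw [← hD] at hj
  have hD4 : 4 ≤ D.card := by
    by_contra hcon
    have : D.card ≤ 3 := by omega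
    have : k * D.card ≤ k * 3 := Nat.mul_le_mul_left k this
    omega
  have hDsq : ∀ p ∈ D, 0 ≤ p.1 ∧ p.1 ≤ 1 ∧ 0 ≤ p.2 ∧ p.2 ≤ 1 := by
    intro p hp
    rw [hD] at hp
    exact hsq p (Finset.mem_inter.mp hp).2
  have hDconv : ∀ p ∈ D, p ∉ convexHull ℝ ((D.erase p : Finset (ℝ × ℝ)) : Set (ℝ × ℝ)) := by
    intro p hp hin
    rw [hD] at hp
    apply hconv j p (Finset.mem_inter.mp hp).1
    have hsub2 : ((D.erase p : Finset (ℝ × ℝ)) : Set (ℝ × ℝ)) ⊆
        (((C j).erase p : Finset (ℝ × ℝ)) : Set (ℝ × ℝ)) := by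
      intro x hx
      have hx' := Finset.mem_erase.mp (Finset.mem_coe.mp hx)
      rw [hD] at hx'
      exact Finset.mem_coe.mpr (Finset.mem_erase.mpr ⟨hx'.1, (Finset.mem_inter.mp hx'.2).1⟩)
    exact convexHull_mono hsub2 hin
  obtain ⟨a, ha, b, hb, c, hc, hab, hbc, hac, hle⟩ := convex_position_upper D hDsq hDconv hD4
  have hDP : ∀ x ∈ D, x ∈ P := by
    intro x hx
    rw [hD] at hx
    exact (Finset.mem_inter.mp hx).2
  refine ⟨a, hDP a ha, b, hDP b hb, c, hDP c hc, hab, hbc, hac, ?_⟩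
  have hT : 0 ≤ triArea a b c := by
    unfold triArea
    positivity
  have h1 : ((P.card : ℝ) - 2 * k) ≤ (k : ℝ) * ((D.card : ℝ) - 2) := by
    have : (P.card : ℝ) ≤ (k : ℝ) * (D.card : ℝ) := by exact_mod_cast hj
    linarith
  have h0 : (0 : ℝ) ≤ (P.card : ℝ) - 2 * k := by
    have : (3 * k : ℝ) < (P.card : ℝ) := by exact_mod_cast hk
    have hk0 : (0 : ℝ) ≤ (k : ℝ) := Nat.cast_nonneg k
    linarith
  have h2 : ((P.card : ℝ) - 2 * k) ^ 3 ≤ ((k : ℝ) * ((D.card : ℝ) - 2)) ^ 3 :=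
    pow_le_pow_left₀ h0 h1 3
  calc triArea a b c * ((P.card : ℝ) - 2 * k) ^ 3
      ≤ triArea a b c * ((k : ℝ) * ((D.card : ℝ) - 2)) ^ 3 := mul_le_mul_of_nonneg_left h2 hT
    _ = (k : ℝ) ^ 3 * (triArea a b c * ((D.card : ℝ) - 2) ^ 3) := by ring
    _ ≤ (k : ℝ) ^ 3 * 72 := mul_le_mul_of_nonneg_left hle (by positivity)
    _ = 72 * (k : ℝ) ^ 3 := by ring

/-- Three distinct integers: the product of the pairwise differences has absolute value at
least `2`. -/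
theorem two_le_abs_prod (x y : ℤ) (hx : x ≠ 0) (hy : y ≠ 0) (hxy : x + y ≠ 0) :
    2 ≤ |x * (x + y) * y| := by
  have heven : Even (x * (x + y) * y) := by
    rcases Int.even_or_odd x with h | h
    · exact (h.mul_right (x + y)).mul_right y
    · rcases Int.even_or_odd y with h' | h'
      · exact h'.mul_left (x * (x + y))
      · exact ((h.add_odd h').mul_left x).mul_right y
  obtain ⟨m, hm⟩ := heven
  have hne : x * (x + y) * y ≠ 0 := mul_ne_zero (mul_ne_zero hx hxy) hy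
  rw [hm] at hne ⊢
  rcases lt_trichotomy m 0 with h | h | h
  · have : 2 ≤ -(m + m) := by omega
    exact le_trans this (neg_le_abs _)
  · exact absurd (by rw [h]; rfl) hne
  · have : 2 ≤ m + m := by omega
    exact le_trans this (le_abs_self _)

/-- The points `(i / N, (i / N) ^ 2)`, `i = 0, …, N`. -/
noncomputable def parabolaSet (N : ℕ) : Finset (ℝ × ℝ) :=
  (Finset.range (N + 1)).image (fun i : ℕ => (((i : ℝ) / N), ((i : ℝ) / N) ^ 2))

theorem parabola_example (N : ℕ) (hN : 1 ≤ N) :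
    (parabolaSet N).card = N + 1 ∧
    (∀ p ∈ parabolaSet N, 0 ≤ p.1 ∧ p.1 ≤ 1 ∧ 0 ≤ p.2 ∧ p.2 ≤ 1) ∧
    (∀ p ∈ parabolaSet N,
      p ∉ convexHull ℝ (((parabolaSet N).erase p : Finset (ℝ × ℝ)) : Set (ℝ × ℝ))) ∧
    (∀ a ∈ parabolaSet N, ∀ b ∈ parabolaSet N, ∀ c ∈ parabolaSet N, a ≠ b → b ≠ c → a ≠ c →
      1 ≤ triArea a b c * (N : ℝ) ^ 3) := by
  classical
  have hNpos : (0 : ℝ) < (N : ℝ) := by exact_mod_cast hN
  have hinj : Function.Injective (fun i : ℕ => (((i : ℝ) / N), ((i : ℝ) / N) ^ 2)) := by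
    intro i j h
    simp only [Prod.mk.injEq] at h
    have h1 := h.1
    rw [div_left_inj' (ne_of_gt hNpos)] at h1
    exact_mod_cast h1
  refine ⟨?_, ?_, ?_, ?_⟩
  · unfold parabolaSet
    rw [Finset.card_image_of_injective _ hinj, Finset.card_range]
  · intro p hp
    unfold parabolaSet at hp
    obtain ⟨i, hi, rfl⟩ := Finset.mem_image.mp hp
    have hi' : (i : ℝ) ≤ (N : ℝ) := by
      have := Finset.mem_range.mp hi
      exact_mod_cast Nat.lt_succ_iff.mp this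
    have h0 : (0 : ℝ) ≤ (i : ℝ) / N := by positivity
    have h1 : (i : ℝ) / N ≤ 1 := (div_le_one hNpos).mpr hi'
    refine ⟨h0, h1, by positivity, ?_⟩
    simp only
    nlinarith
  · intro p hp hin
    have hp' := hp
    unfold parabolaSet at hp'
    obtain ⟨i, hi, rfl⟩ := Finset.mem_image.mp hp'
    have hsubset : (((parabolaSet N).erase (((i : ℝ) / N), ((i : ℝ) / N) ^ 2) :
        Finset (ℝ × ℝ)) : Set (ℝ × ℝ)) ⊆
        {q : ℝ × ℝ | 0 < q.2 - 2 * ((i : ℝ) / N) * q.1 + ((i : ℝ) / N) ^ 2} := by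
      intro q hq
      have hq' := Finset.mem_erase.mp (Finset.mem_coe.mp hq)
      have hq2 := hq'.2
      unfold parabolaSet at hq2
      obtain ⟨j, hj, rfl⟩ := Finset.mem_image.mp hq2
      have hne : (j : ℝ) / N ≠ (i : ℝ) / N := by
        intro h
        apply hq'.1
        rw [h]
      simp only [Set.mem_ofPred_eq]
      have : ((j : ℝ) / N) ^ 2 - 2 * ((i : ℝ) / N) * ((j : ℝ) / N) + ((i : ℝ) / N) ^ 2 =
          ((j : ℝ) / N - (i : ℝ) / N) ^ 2 := by ring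
      rw [this]
      exact sq_pos_of_ne_zero (sub_ne_zero.mpr hne)
    have hconvex : Convex ℝ {q : ℝ × ℝ | 0 < q.2 - 2 * ((i : ℝ) / N) * q.1 + ((i : ℝ) / N) ^ 2} := by
      intro x hx y hy s t hs ht hst
      simp only [Set.mem_ofPred_eq] at hx hy ⊢
      simp only [Prod.snd_add, Prod.smul_snd, Prod.fst_add, Prod.smul_fst, smul_eq_mul]
      have ht' : t = 1 - s := by linarith
      subst ht'
      rcases eq_or_lt_of_le hs with h0 | h0
      · rw [← h0]
        simp only [zero_mul, zero_add, sub_zero, one_mul]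
        exact hy
      · nlinarith [mul_pos h0 hx, mul_nonneg ht (le_of_lt hy)]
    have hmem := convexHull_min hsubset hconvex hin
    simp only [Set.mem_ofPred_eq] at hmem
    have : ((i : ℝ) / N) ^ 2 - 2 * ((i : ℝ) / N) * ((i : ℝ) / N) + ((i : ℝ) / N) ^ 2 = 0 := by ring
    rw [this] at hmem
    exact lt_irrefl 0 hmem
  · intro a ha b hb c hc hab hbc hac
    unfold parabolaSet at ha hb hc
    obtain ⟨i, hi, rfl⟩ := Finset.mem_image.mp ha
    obtain ⟨j, hj, rfl⟩ := Finset.mem_image.mp hb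
    obtain ⟨l, hl, rfl⟩ := Finset.mem_image.mp hc
    have hij : i ≠ j := fun h => hab (by rw [h])
    have hjl : j ≠ l := fun h => hbc (by rw [h])
    have hil : i ≠ l := fun h => hac (by rw [h])
    have hZ := two_le_abs_prod ((j : ℤ) - i) ((l : ℤ) - j)
      (by omega) (by omega) (by omega)
    have hR : (2 : ℝ) ≤ |((j : ℝ) - i) * (((j : ℝ) - i) + ((l : ℝ) - j)) * ((l : ℝ) - j)| := by
      exact_mod_cast hZ
    unfold triArea
    simp only
    have hdet : ((j : ℝ) / N - (i : ℝ) / N) * (((l : ℝ) / N) ^ 2 - ((i : ℝ) / N) ^ 2) -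
        (((j : ℝ) / N) ^ 2 - ((i : ℝ) / N) ^ 2) * ((l : ℝ) / N - (i : ℝ) / N) =
        (((j : ℝ) - i) * (((j : ℝ) - i) + ((l : ℝ) - j)) * ((l : ℝ) - j)) / (N : ℝ) ^ 3 := by
      field_simp
      ring
    rw [hdet, abs_div, abs_of_pos (pow_pos hNpos 3)]
    have hN3 : (0 : ℝ) < (N : ℝ) ^ 3 := pow_pos hNpos 3
    have : |((j : ℝ) - i) * (((j : ℝ) - i) + ((l : ℝ) - j)) * ((l : ℝ) - j)| / (N : ℝ) ^ 3 / 2 *
        (N : ℝ) ^ 3 =
        |((j : ℝ) - i) * (((j : ℝ) - i) + ((l : ℝ) - j)) * ((l : ℝ) - j)| / 2 := by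
      field_simp
    rw [this]
    linarith

end Vale.Agent.Lib.P036.H65
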